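import Mathlib

/-!
# P295: coordinates of complex polynomial rings and the general polynomial of degree at most two
-/

namespace Vale.Agent.Lib.P295

open MvPolynomial

/-- `g` is a coordinate of the polynomial ring in `N` variables over `ℂ`: some `ℂ`-algebra
automorphism of the ring sends one of the variables to `g`. -/
def IsCoord (N : ℕ) (g : MvPolynomial (Fin N) ℂ) : Prop :=
  ∃ φ : MvPolynomial (Fin N) ℂ ≃ₐ[ℂ] MvPolynomial (Fin N) ℂ, ∃ i : Fin N, φ (X i) = g

/-- The general polynomial of degree at most two in `n` variables: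
`∑ j k, a j k x_j x_k + ∑ j, b j x_j + c`. -/
noncomputable def quad (n : ℕ) (a : Fin n → Fin n → ℂ) (b : Fin n → ℂ) (c : ℂ) :
    MvPolynomial (Fin n) ℂ :=
  ∑ j, ∑ k, C (a j k) * X j * X k + ∑ j, C (b j) * X j + C c

end Vale.Agent.Lib.P295
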