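import Vale.Agent.Lib.P295.helper67.Defs

/-!
# P295: a stable coordinate of degree at most two is a coordinate
-/

namespace Vale.Agent.Lib.P295

open MvPolynomial Finset

/-- The gradient of `quad n a b c` at the point `p`. -/
def qgrad (n : ℕ) (a : Fin n → Fin n → ℂ) (b : Fin n → ℂ) (p : Fin n → ℂ) (j : Fin n) : ℂ :=
  ∑ k, (a j k + a k j) * p k + b j

/-- The polynomial function of `quad n a b c`. -/
def qfun (n : ℕ) (a : Fin n → Fin n → ℂ) (b : Fin n → ℂ) (c : ℂ) (p : Fin n → ℂ) : ℂ :=
  ∑ j, ∑ k, a j k * p j * p k + ∑ j, b j * p j + c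

theorem eval_quad (n : ℕ) (a : Fin n → Fin n → ℂ) (b : Fin n → ℂ) (c : ℂ) (p : Fin n → ℂ) :
    eval p (quad n a b c) = qfun n a b c p := by
  simp [quad, qfun]

/-- Step 1: a stable coordinate of degree at most two has no critical point. -/
theorem no_critical_point (n m : ℕ) (a : Fin n → Fin n → ℂ) (b : Fin n → ℂ) (c : ℂ)
    (h : IsCoord (n + m) (rename (Fin.castAdd m) (quad n a b c))) (p : Fin n → ℂ) :
    ∃ j, qgrad n a b p j ≠ 0 := by
  classical
  obtain ⟨φ, i0, hφ⟩ := h
  -- the derivation `φ ∘ ∂_{i0} ∘ φ⁻¹`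
  let D : MvPolynomial (Fin (n + m)) ℂ →ₗ[ℂ] MvPolynomial (Fin (n + m)) ℂ :=
    φ.toLinearMap ∘ₗ ((pderiv i0 : Derivation ℂ _ _) : _ →ₗ[ℂ] _) ∘ₗ φ.symm.toLinearMap
  have hD : ∀ g, D g = φ (pderiv i0 (φ.symm g)) := fun g => rfl
  have hmul : ∀ g g', D (g * g') = g * D g' + g' * D g := by
    intro g g'
    simp only [hD, map_mul, Derivation.leibniz, smul_eq_mul, map_add, AlgEquiv.apply_symm_apply]
  have hone : D (rename (Fin.castAdd m) (quad n a b c)) = 1 := by
    rw [hD, ← hφ, AlgEquiv.symm_apply_apply, pderiv_X_self, map_one]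
  let Y : Fin n → MvPolynomial (Fin (n + m)) ℂ := fun j => X (Fin.castAdd m j)
  have hren : rename (Fin.castAdd m) (quad n a b c) =
      ∑ j, ∑ k, a j k • (Y j * Y k) + ∑ j, b j • Y j + C c := by
    simp only [quad, map_add, map_sum, map_mul, rename_C, rename_X, Y, smul_eq_C_mul, mul_assoc]
  have hDC : D (C c) = 0 := by
    rw [hD]
    have : φ.symm (C c) = C c := by
      rw [← algebraMap_eq]; exact φ.symm.commutes c
    rw [this, pderiv_C, map_zero]
  let P : Fin (n + m) → ℂ := Fin.addCases p (fun _ => 0)
  have hP : ∀ j, eval P (Y j) = p j := by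
    intro j
    simp [Y, P]
  let d : Fin n → ℂ := fun j => eval P (D (Y j))
  have hkey : (1 : ℂ) = ∑ j, ∑ k, a j k * (p j * d k + p k * d j) + ∑ j, b j * d j := by
    have h1 : eval P (D (rename (Fin.castAdd m) (quad n a b c))) = 1 := by
      rw [hone, map_one]
    rw [hren] at h1
    simp only [map_add, map_sum, map_smul, hmul, hDC, add_zero, smul_eval, eval_mul, hP] at h1
    rw [← h1]
  by_contra hcon
  push Not at hcon
  have hzero : ∑ j, ∑ k, a j k * (p j * d k + p k * d j) + ∑ j, b j * d j =
      ∑ j, qgrad n a b p j * d j := by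
    have e1 : ∑ j, qgrad n a b p j * d j =
        ∑ j, ∑ k, a k j * (p k * d j) + ∑ j, ∑ k, a j k * (p k * d j) + ∑ j, b j * d j := by
      simp only [qgrad, add_mul, Finset.sum_add_distrib, Finset.sum_mul]
      congr 1
      rw [add_comm]
      congr 1 <;> exact Finset.sum_congr rfl (fun j _ => Finset.sum_congr rfl (fun k _ => by ring))
    have e2 : ∑ j, ∑ k, a j k * (p j * d k + p k * d j) =
        ∑ j, ∑ k, a j k * (p j * d k) + ∑ j, ∑ k, a j k * (p k * d j) := by
      simp only [mul_add, Finset.sum_add_distrib]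
    rw [e1, e2, Finset.sum_comm (f := fun j k => a k j * (p k * d j))]
  rw [hzero] at hkey
  have : ∑ j, qgrad n a b p j * d j = 0 :=
    Finset.sum_eq_zero (fun j _ => by rw [hcon j, zero_mul])
  rw [this] at hkey
  exact one_ne_zero hkey

/-- Step 2 (linear algebra): if the gradient never vanishes, there is a constant direction `v`
along which the polynomial has derivative `1`. -/
theorem exists_slice (n : ℕ) (a : Fin n → Fin n → ℂ) (b : Fin n → ℂ)
    (h : ∀ p : Fin n → ℂ, ∃ j, qgrad n a b p j ≠ 0) :
    ∃ v : Fin n → ℂ, (∀ k, ∑ j, v j * (a j k + a k j) = 0) ∧ ∑ j, v j * b j = 1 := by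
  classical
  let L : (Fin n → ℂ) →ₗ[ℂ] (Fin n → ℂ) :=
    { toFun := fun p j => ∑ k, (a j k + a k j) * p k
      map_add' := by
        intro p q
        funext j
        simp [mul_add, Finset.sum_add_distrib]
      map_smul' := by
        intro r p
        funext j
        simp only [Pi.smul_apply, smul_eq_mul, RingHom.id_apply, Finset.mul_sum]
        exact Finset.sum_congr rfl (fun k _ => by ring) }
  have hL : ∀ p j, L p j = ∑ k, (a j k + a k j) * p k := fun p j => rfl
  have hb : b ∉ LinearMap.range L := by
    rintro ⟨p, hp⟩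
    obtain ⟨j, hj⟩ := h (-p)
    apply hj
    have hpj := congrFun hp j
    rw [hL] at hpj
    simp only [qgrad, Pi.neg_apply, mul_neg, Finset.sum_neg_distrib]
    rw [hpj]
    ring
  obtain ⟨ψ, hψb, hψ⟩ := Submodule.exists_dual_map_eq_bot_of_notMem hb inferInstance
  have hψL : ∀ p, ψ (L p) = 0 := by
    intro p
    have h1 : ψ (L p) ∈ (LinearMap.range L).map ψ :=
      Submodule.mem_map_of_mem (LinearMap.mem_range_self L p)
    rw [hψ] at h1
    simpa using h1
  let e : Fin n → ℂ := fun j => ψ (fun t => if j = t then 1 else 0)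
  have hψsum : ∀ u : Fin n → ℂ, ψ u = ∑ j, u j * e j := by
    intro u
    have h1 := LinearMap.pi_apply_eq_sum_univ ψ u
    simpa [e, smul_eq_mul] using h1
  refine ⟨fun j => e j / ψ b, ?_, ?_⟩
  · intro k
    have h1 := hψL (fun t => if k = t then 1 else 0)
    rw [hψsum] at h1
    have h2 : ∀ j, L (fun t => if k = t then (1 : ℂ) else 0) j = a j k + a k j := by
      intro j
      rw [hL]
      simp
    simp only [h2] at h1
    have h3 : ∑ j, e j / ψ b * (a j k + a k j) = (∑ j, (a j k + a k j) * e j) / ψ b := by
      rw [Finset.sum_div]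
      exact Finset.sum_congr rfl (fun j _ => by ring)
    rw [h3, h1, zero_div]
  · have h1 := hψsum b
    have h3 : ∑ j, e j / ψ b * b j = (∑ j, b j * e j) / ψ b := by
      rw [Finset.sum_div]
      exact Finset.sum_congr rfl (fun j _ => by ring)
    rw [h3, ← h1, div_self hψb]

/-- The bilinear form of the coefficients `a`. -/
def qbil (n : ℕ) (a : Fin n → Fin n → ℂ) (p q : Fin n → ℂ) : ℂ :=
  ∑ j, ∑ k, a j k * p j * q k

theorem qbil_slice (n : ℕ) (a : Fin n → Fin n → ℂ) (v q : Fin n → ℂ)
    (hv : ∀ k, ∑ j, v j * (a j k + a k j) = 0) :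
    qbil n a v q + qbil n a q v = 0 := by
  have e : qbil n a v q + qbil n a q v = ∑ k, q k * ∑ j, v j * (a j k + a k j) := by
    simp only [qbil, Finset.mul_sum]
    rw [Finset.sum_comm (f := fun j k => a j k * v j * q k), ← Finset.sum_add_distrib]
    apply Finset.sum_congr rfl
    intro k _
    rw [← Finset.sum_add_distrib]
    apply Finset.sum_congr rfl
    intro j _
    ring
  rw [e]
  exact Finset.sum_eq_zero (fun k _ => by rw [hv k, mul_zero])

/-- Step 3a: along the direction `v` the polynomial function is a translation. -/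
theorem qfun_slice (n : ℕ) (a : Fin n → Fin n → ℂ) (b : Fin n → ℂ) (c : ℂ) (v : Fin n → ℂ)
    (hv1 : ∀ k, ∑ j, v j * (a j k + a k j) = 0) (hv2 : ∑ j, v j * b j = 1)
    (y : Fin n → ℂ) (s : ℂ) :
    qfun n a b c (fun t => y t + s * v t) = qfun n a b c y + s := by
  have hB : qbil n a (fun t => y t + s * v t) (fun t => y t + s * v t) =
      qbil n a y y + s * (qbil n a v y + qbil n a y v) + s ^ 2 * qbil n a v v := by
    have e : qbil n a (fun t => y t + s * v t) (fun t => y t + s * v t) =
        ∑ j, ∑ k, (a j k * y j * y k + s * (a j k * v j * y k + a j k * y j * v k) +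
          s ^ 2 * (a j k * v j * v k)) := by
      unfold qbil
      exact Finset.sum_congr rfl (fun j _ => Finset.sum_congr rfl (fun k _ => by ring))
    rw [e]
    simp only [qbil, mul_add, Finset.mul_sum, Finset.sum_add_distrib]
  have h1 := qbil_slice n a v y hv1
  have h2 := qbil_slice n a v v hv1
  have h2' : qbil n a v v = 0 := by linear_combination h2 / 2
  have hlin : ∑ j, b j * (y j + s * v j) = ∑ j, b j * y j + s := by
    have e : ∑ j, b j * (y j + s * v j) = ∑ j, b j * y j + s * ∑ j, v j * b j := by
      rw [Finset.mul_sum, ← Finset.sum_add_distrib]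
      exact Finset.sum_congr rfl (fun j _ => by ring)
    rw [e, hv2, mul_one]
  have hq : ∀ p, qfun n a b c p = qbil n a p p + ∑ j, b j * p j + c := fun p => rfl
  rw [hq, hq, hB, h1, h2', hlin]
  ring

/-- Step 3b: a polynomial of degree at most two with such a direction `v` is a coordinate. -/
theorem isCoord_of_slice (n : ℕ) (a : Fin n → Fin n → ℂ) (b : Fin n → ℂ) (c : ℂ)
    (v : Fin n → ℂ) (hv1 : ∀ k, ∑ j, v j * (a j k + a k j) = 0) (hv2 : ∑ j, v j * b j = 1) :
    IsCoord n (quad n a b c) := by
  classical
  have hT := qfun_slice n a b c v hv1 hv2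
  obtain ⟨i, hi⟩ : ∃ i, v i ≠ 0 := by
    by_contra hcon
    push Not at hcon
    have h0 : ∑ j, v j * b j = 0 := Finset.sum_eq_zero (fun j _ => by rw [hcon j, zero_mul])
    rw [h0] at hv2
    exact zero_ne_one hv2
  have hF : ∀ p, eval p (quad n a b c) = qfun n a b c p := eval_quad n a b c
  let g1 : Fin n → MvPolynomial (Fin n) ℂ :=
    fun k => if k = i then quad n a b c else X k - C (v k / v i) * X i
  let h0 : MvPolynomial (Fin n) ℂ :=
    aeval (fun k => if k = i then (0 : MvPolynomial (Fin n) ℂ) else X k) (quad n a b c)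
  let g2 : Fin n → MvPolynomial (Fin n) ℂ :=
    fun k => if k = i then C (v i) * (X i - h0) else X k + C (v k) * (X i - h0)
  have hev : ∀ (g : Fin n → MvPolynomial (Fin n) ℂ) (q : MvPolynomial (Fin n) ℂ)
      (x : Fin n → ℂ), eval x (aeval g q) = eval (fun k => eval x (g k)) q := by
    intro g q x
    have h1 := comp_aeval_apply (f := g) (aeval x : MvPolynomial (Fin n) ℂ →ₐ[ℂ] ℂ) q
    simpa using h1
  let z : (Fin n → ℂ) → Fin n → ℂ := fun x k => if k = i then 0 else x k
  have hh0 : ∀ x, eval x h0 = qfun n a b c (z x) := by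
    intro x
    rw [hev, hF]
    congr 1
    funext k
    by_cases hk : k = i <;> simp [z, hk]
  have hg1 : ∀ x k, eval x (g1 k) = if k = i then qfun n a b c x else x k - v k / v i * x i := by
    intro x k
    by_cases hk : k = i <;> simp [g1, hk, hF]
  have hg2 : ∀ x k, eval x (g2 k) = z x k + (x i - qfun n a b c (z x)) * v k := by
    intro x k
    by_cases hk : k = i
    · simp only [g2, z, hk, if_true, map_mul, map_sub, eval_C, eval_X, hh0]
      ring
    · simp only [g2, z, hk, if_false, map_mul, map_sub, map_add, eval_C, eval_X, hh0]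
      ring
  have h12 : (aeval g1).comp (aeval g2) = AlgHom.id ℂ (MvPolynomial (Fin n) ℂ) := by
    apply algHom_ext
    intro k
    apply MvPolynomial.funext
    intro x
    simp only [AlgHom.coe_comp, Function.comp_apply, aeval_X, AlgHom.coe_id, id_eq, eval_X]
    rw [hev, hg2]
    have hz : z (fun k => eval x (g1 k)) = fun t => x t + (-(x i / v i)) * v t := by
      funext t
      by_cases ht : t = i
      · simp only [z, ht, if_true]
        field_simp
        ring
      · simp only [z, ht, if_false, hg1]
        ring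
    have hFz : qfun n a b c (z (fun k => eval x (g1 k))) = qfun n a b c x - x i / v i := by
      rw [hz, hT]
      ring
    rw [hFz]
    by_cases hk : k = i
    · simp only [z, hk, if_true, hg1]
      field_simp
      ring
    · simp only [z, hk, if_false, hg1, if_true]
      field_simp
      ring
  have h21 : (aeval g2).comp (aeval g1) = AlgHom.id ℂ (MvPolynomial (Fin n) ℂ) := by
    apply algHom_ext
    intro k
    apply MvPolynomial.funext
    intro x
    simp only [AlgHom.coe_comp, Function.comp_apply, aeval_X, AlgHom.coe_id, id_eq, eval_X]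
    rw [hev, hg1]
    have hE : (fun k => eval x (g2 k)) = fun t => z x t + (x i - qfun n a b c (z x)) * v t := by
      funext t
      exact hg2 x t
    by_cases hk : k = i
    · simp only [hk, if_true]
      rw [hE, hT]
      ring
    · simp only [hk, if_false, hg2, z, if_true]
      field_simp
      ring
  refine ⟨AlgEquiv.ofAlgHom (aeval g1) (aeval g2) h12 h21, i, ?_⟩
  simp [g1]

/-- A stable coordinate of degree at most two is a coordinate. -/
theorem quad_stable_coord (n m : ℕ) (a : Fin n → Fin n → ℂ) (b : Fin n → ℂ) (c : ℂ)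
    (h : IsCoord (n + m) (rename (Fin.castAdd m) (quad n a b c))) :
    IsCoord n (quad n a b c) := by
  obtain ⟨v, hv1, hv2⟩ := exists_slice n a b (no_critical_point n m a b c h)
  exact isCoord_of_slice n a b c v hv1 hv2

theorem quad_add (n : ℕ) (a a' : Fin n → Fin n → ℂ) (b b' : Fin n → ℂ) (c c' : ℂ) :
    quad n a b c + quad n a' b' c' =
      quad n (fun j k => a j k + a' j k) (fun j => b j + b' j) (c + c') := by
  simp only [quad, C_add, add_mul, Finset.sum_add_distrib]
  ring

/-- A monomial of degree at most two is of the form `quad n a b c`. -/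
theorem monomial_eq_quad (n : ℕ) (s : Fin n →₀ ℕ) (hs : Finsupp.degree s ≤ 2) (r : ℂ) :
    ∃ a b c, monomial s r = quad n a b c := by
  classical
  have peel : ∀ t : Fin n →₀ ℕ, t ≠ 0 → ∃ j t', t = t' + Finsupp.single j 1 := by
    intro t ht
    obtain ⟨j, hj⟩ : ∃ j, t j ≠ 0 := by
      by_contra hcon
      push Not at hcon
      exact ht (Finsupp.ext hcon)
    refine ⟨j, t - Finsupp.single j 1, ?_⟩
    have hle : Finsupp.single j 1 ≤ t := Finsupp.single_le_iff.2 (Nat.one_le_iff_ne_zero.2 hj)
    exact (tsub_add_cancel_of_le hle).symm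
  by_cases h0 : s = 0
  · refine ⟨fun _ _ => 0, fun _ => 0, r, ?_⟩
    rw [h0]
    simp [quad]
  · obtain ⟨j, s1, rfl⟩ := peel s h0
    have hs1 : Finsupp.degree s1 ≤ 1 := by
      have h := hs
      rw [map_add, Finsupp.degree_single] at h
      omega
    by_cases h1 : s1 = 0
    · refine ⟨fun _ _ => 0, fun t => if t = j then r else 0, 0, ?_⟩
      rw [h1, zero_add, ← C_mul_X_eq_monomial]
      have e : ∑ t, C (if t = j then r else 0) * (X t : MvPolynomial (Fin n) ℂ) = C r * X j := by
        rw [Finset.sum_eq_single j]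
        · simp
        · intro t _ ht
          simp [ht]
        · intro h
          exact absurd (mem_univ _) h
      simp only [quad, e]
      simp
    · obtain ⟨k, s2, rfl⟩ := peel s1 h1
      have hs2 : s2 = 0 := by
        have h := hs1
        rw [map_add, Finsupp.degree_single] at h
        exact (Finsupp.degree_eq_zero_iff s2).1 (by omega)
      refine ⟨fun t u => if t = k then (if u = j then r else 0) else 0, fun _ => 0, 0, ?_⟩
      rw [hs2, zero_add, monomial_add_single, ← C_mul_X_eq_monomial, pow_one]
      have e : ∑ t, ∑ u, C (if t = k then (if u = j then r else 0) else 0) *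
          (X t : MvPolynomial (Fin n) ℂ) * X u = C r * X k * X j := by
        rw [Finset.sum_eq_single k, Finset.sum_eq_single j]
        · simp
        · intro u _ hu
          simp [hu]
        · intro h
          exact absurd (mem_univ _) h
        · intro t _ ht
          apply Finset.sum_eq_zero
          intro u _
          simp [ht]
        · intro h
          exact absurd (mem_univ _) h
      simp only [quad, e]
      simp

/-- Every polynomial of total degree at most two is of the form `quad n a b c`. -/
theorem exists_quad_of_totalDegree_le (n : ℕ) (f : MvPolynomial (Fin n) ℂ)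
    (hf : f.totalDegree ≤ 2) : ∃ a b c, f = quad n a b c := by
  have h := support_sum_monomial_coeff f
  rw [← h]
  apply Finset.sum_induction (fun s => monomial s (coeff s f))
    (fun g => ∃ a b c, g = quad n a b c)
  · rintro g g' ⟨a, b, c, rfl⟩ ⟨a', b', c', rfl⟩
    exact ⟨_, _, _, quad_add n a a' b b' c c'⟩
  · exact ⟨fun _ _ => 0, fun _ => 0, 0, by simp [quad]⟩
  · intro s hs
    have hdeg : Finsupp.degree s ≤ 2 := (le_totalDegree hs).trans hf
    exact monomial_eq_quad n s hdeg (coeff s f)

/-- A stable coordinate of total degree at most two is a coordinate. -/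
theorem stable_coord_of_totalDegree_le_two (n m : ℕ) (f : MvPolynomial (Fin n) ℂ)
    (hf : f.totalDegree ≤ 2) (h : IsCoord (n + m) (rename (Fin.castAdd m) f)) :
    IsCoord n f := by
  obtain ⟨a, b, c, rfl⟩ := exists_quad_of_totalDegree_le n f hf
  exact quad_stable_coord n m a b c h

end Vale.Agent.Lib.P295
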